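import Mathlib

namespace Vale.Agent.Lib.P194

/-- In the endomorphism ring of an abelian group killed by the prime `p`,
`(T - 1) ^ p = T ^ p - 1`. -/
theorem end_sub_one_pow {W : Type*} [AddCommGroup W] {p : ℕ} (hp : p.Prime)
    (hW : ∀ w : W, p • w = 0) (T : AddMonoid.End W) : (T - 1) ^ p = T ^ p - 1 := by
  have hp0 : ((p : ℕ) : AddMonoid.End W) = 0 := by
    ext w
    simp [AddMonoid.End.natCast_apply, hW]
  obtain ⟨r, hr⟩ := (Commute.one_right (T - 1)).exists_add_pow_prime_eq hp
  rw [sub_add_cancel, hp0] at hr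
  simp only [one_pow, zero_mul, add_zero] at hr
  rw [hr]; abel

/-- Abstract step lemma. -/
theorem abstract_step {W : Type*} [AddCommGroup W] {p : ℕ} (hp : p.Prime)
    (hW : ∀ w : W, p • w = 0) (f T : AddMonoid.End W) (hff : f * f = f) (hfT : Commute f T)
    (F : AddSubgroup W) (hfF : ∀ w ∈ F, f w ∈ F) (hTF : ∀ w ∈ F, T w ∈ F)
    (hTp : ∀ w ∈ F, (T ^ p) w = w)
    (hkill : ∀ w ∈ F, T w = w → f w = 0) : ∀ w ∈ F, f w = 0 := by
  have hτF : ∀ j : ℕ, ∀ w ∈ F, ((T - 1) ^ j) w ∈ F := by
    intro j
    induction j with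
    | zero => intro w hw; simpa using hw
    | succ j ih =>
      intro w hw
      rw [pow_succ']
      have h1 := ih w hw
      change (T - 1) (((T - 1) ^ j) w) ∈ F
      have : (T - 1) (((T - 1) ^ j) w) = T (((T - 1) ^ j) w) - ((T - 1) ^ j) w := rfl
      rw [this]
      exact F.sub_mem (hTF _ h1) h1
  have hcomm : ∀ j : ℕ, Commute f ((T - 1) ^ j) := fun j =>
    ((hfT.sub_right (Commute.one_right f))).pow_right j
  have key : ∀ j : ℕ, ∀ w ∈ F, ((T - 1) ^ j) w = 0 → f w = 0 := by
    intro j
    induction j with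
    | zero => intro w _ h0; have : w = 0 := by simpa using h0
              rw [this, map_zero]
    | succ j ih =>
      intro w hw h0
      rw [pow_succ'] at h0
      have h1 : T (((T - 1) ^ j) w) = ((T - 1) ^ j) w := by
        have : T (((T - 1) ^ j) w) - ((T - 1) ^ j) w = 0 := h0
        exact sub_eq_zero.mp this
      have h2 : f (((T - 1) ^ j) w) = 0 := hkill _ (hτF j w hw) h1
      have h3 : ((T - 1) ^ j) (f w) = 0 := by
        have : f (((T - 1) ^ j) w) = ((T - 1) ^ j) (f w) :=
          congrArg (fun e : AddMonoid.End W => e w) (hcomm j).eq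
        rw [← this, h2]
      have h4 := ih (f w) (hfF w hw) h3
      have h5 : f (f w) = f w := by
        have := congrArg (fun e : AddMonoid.End W => e w) hff
        simpa using this
      rw [← h5, h4]
  intro w hw
  apply key p w hw
  rw [end_sub_one_pow hp hW]
  have : (T ^ p - 1) w = (T ^ p) w - w := rfl
  rw [this, hTp w hw, sub_self]

open MonoidAlgebra

variable {S G : Type*} [Ring S] [Group G]

/-- left translation operator on functions `G → S`. -/
def ltr (y : G) : AddMonoid.End (G → S) where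
  toFun h := fun g => h (y⁻¹ * g)
  map_zero' := rfl
  map_add' _ _ := rfl

/-- right translation operator on functions `G → S`. -/
def rtr (c : G) : AddMonoid.End (G → S) where
  toFun h := fun g => h (g * c)
  map_zero' := rfl
  map_add' _ _ := rfl

@[simp] theorem ltr_apply (y : G) (h : G → S) (g : G) : ltr y h g = h (y⁻¹ * g) := rfl
@[simp] theorem rtr_apply (y : G) (h : G → S) (g : G) : rtr y h g = h (g * y) := rfl

/-- left translation as a monoid hom. -/
def ltrHom : G →* AddMonoid.End (G → S) where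
  toFun := ltr
  map_one' := by ext h g; simp
  map_mul' a b := by
    ext h g
    change h ((a * b)⁻¹ * g) = h (b⁻¹ * (a⁻¹ * g))
    simp [mul_assoc]

theorem smul_comm_ltr (s : S) (y : G) :
    Commute (Module.toAddMonoidEnd S (G → S) s) (ltrHom y) := by
  ext h g
  rfl

/-- The convolution action of `S[G]` on all functions `G → S`. -/
noncomputable def convHom : MonoidAlgebra S G →+* AddMonoid.End (G → S) :=
  MonoidAlgebra.liftNCRingHom (Module.toAddMonoidEnd S (G → S)) ltrHom smul_comm_ltr

theorem convHom_single (y : G) (s : S) (h : G → S) (g : G) :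
    convHom (single y s) h g = s * h (y⁻¹ * g) := by
  unfold convHom
  rw [liftNCRingHom_single]
  rfl

theorem convHom_apply (x : MonoidAlgebra S G) (h : G → S) (g : G) :
    convHom x h g = x.coeff.sum (fun y s => s * h (y⁻¹ * g)) := by
  induction x using MonoidAlgebra.induction_linear with
  | zero => simp
  | add x y hx hy =>
    rw [map_add, coeff_add, Finsupp.sum_add_index' (by simp) (by intro a b c; rw [add_mul])]
    rw [← hx, ← hy]; rfl
  | single y s =>
    rw [convHom_single, coeff_single, Finsupp.sum_single_index (by simp)]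

theorem convHom_comm_rtr (x : MonoidAlgebra S G) (c : G) : Commute (convHom x) (rtr c) := by
  ext h g
  change convHom x (rtr c h) g = convHom x h (g * c)
  rw [convHom_apply, convHom_apply]
  simp [mul_assoc]

theorem convHom_delta [DecidableEq G] (x : MonoidAlgebra S G) (g : G) :
    convHom x (Pi.single 1 1) g = x.coeff g := by
  rw [convHom_apply]
  rw [Finsupp.sum, Finset.sum_eq_single g]
  · simp
  · intro b _ hb
    have : b⁻¹ * g ≠ 1 := by
      intro h; apply hb; rw [inv_mul_eq_one] at h; exact h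
    simp [this]
  · intro hg
    simp [Finsupp.notMem_support_iff.mp hg]

theorem convHom_quot (N : Subgroup G) [N.Normal] (x : MonoidAlgebra S G) (h : G ⧸ N → S) (g : G) :
    convHom x (fun a => h (QuotientGroup.mk a)) g =
      convHom (mapDomainRingHom S (QuotientGroup.mk' N) x) h (QuotientGroup.mk g) := by
  induction x using MonoidAlgebra.induction_linear with
  | zero => simp
  | add x y hx hy =>
    rw [map_add, map_add, map_add]
    change convHom x _ g + convHom y _ g = convHom _ h _ + convHom _ h _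
    rw [hx, hy]
  | single y s =>
    rw [convHom_single]
    have : mapDomainRingHom S (QuotientGroup.mk' N) (single y s) = single (QuotientGroup.mk' N y) s := by
      simp
    rw [this, convHom_single]
    simp


variable {n : ℕ}

/-- The action of `n × n` matrices over `S[G]` on `n`-tuples of functions `G → S`. -/
noncomputable def mact (x : Matrix (Fin n) (Fin n) (MonoidAlgebra S G)) :
    AddMonoid.End (Fin n → G → S) where
  toFun h := fun i => ∑ j, convHom (x i j) (h j)
  map_zero' := by ext i g; simp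
  map_add' a b := by ext i g; simp [Finset.sum_add_distrib]

theorem mact_apply (x : Matrix (Fin n) (Fin n) (MonoidAlgebra S G)) (h : Fin n → G → S) (i : Fin n) :
    mact x h i = ∑ j, convHom (x i j) (h j) := rfl

theorem end_sum_apply {ι V : Type*} [AddCommMonoid V] (s : Finset ι) (e : ι → AddMonoid.End V)
    (v : V) : (∑ k ∈ s, e k) v = ∑ k ∈ s, e k v :=
  AddMonoidHom.finsetSum_apply _ _ _

theorem mact_mul (x y : Matrix (Fin n) (Fin n) (MonoidAlgebra S G)) :
    mact (x * y) = mact x * mact y := by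
  ext h i g
  change mact (x * y) h i g = mact x (mact y h) i g
  simp only [mact_apply, Matrix.mul_apply, map_sum, map_mul, end_sum_apply]
  rw [Finset.sum_comm]
  rfl

/-- right translation on tuples. -/
def mrtr (c : G) : AddMonoid.End (Fin n → G → S) where
  toFun h := fun j => rtr c (h j)
  map_zero' := rfl
  map_add' _ _ := rfl

theorem mrtr_apply (c : G) (h : Fin n → G → S) (j : Fin n) (g : G) : mrtr c h j g = h j (g * c) := rfl

theorem mact_comm_mrtr (x : Matrix (Fin n) (Fin n) (MonoidAlgebra S G)) (c : G) :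
    Commute (mact x) (mrtr c) := by
  ext h i g
  change mact x (mrtr c h) i g = mrtr c (mact x h) i g
  rw [mrtr_apply, mact_apply, mact_apply]
  simp only [Finset.sum_apply]
  refine Finset.sum_congr rfl fun j _ => ?_
  have := congrArg (fun e : AddMonoid.End (G → S) => e (h j) g) (convHom_comm_rtr (x i j) c).eq
  exact this

theorem mrtr_pow (c : G) (k : ℕ) : (mrtr c : AddMonoid.End (Fin n → G → S)) ^ k = mrtr (c ^ k) := by
  induction k with
  | zero => ext h j g; simp [mrtr_apply]
  | succ k ih =>
    rw [pow_succ, ih]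
    ext h j g
    change mrtr (c ^ k) (mrtr c h) j g = _
    simp only [mrtr_apply, pow_succ]
    rw [mul_assoc]


/-- The subgroup of elements under whose right translation the tuple `h` is invariant. -/
def stab (h : Fin n → G → S) : Subgroup G where
  carrier := {x | ∀ j g, h j (g * x) = h j g}
  one_mem' := by intro j g; simp
  mul_mem' := by
    intro a b ha hb j g
    rw [← mul_assoc, hb, ha]
  inv_mem' := by
    intro a ha j g
    have := ha j (g * a⁻¹)
    rw [inv_mul_cancel_right] at this
    exact this.symm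


/-- The tuples of functions that are invariant under right translation by `U`. -/
def invF (n : ℕ) (S : Type*) [Ring S] (U : Subgroup G) : AddSubgroup (Fin n → G → S) where
  carrier := {h | U ≤ stab h}
  zero_mem' := by intro u _ j g; rfl
  add_mem' := by
    intro a b ha hb u hu j g
    change a j (g * u) + b j (g * u) = a j g + b j g
    rw [ha hu j g, hb hu j g]
  neg_mem' := by
    intro a ha u hu j g
    change - a j (g * u) = - a j g
    rw [ha hu j g]

theorem mem_invF (U : Subgroup G) (h : Fin n → G → S) : h ∈ invF n S U ↔ U ≤ stab h := Iff.rfl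

theorem mact_mem_invF (x : Matrix (Fin n) (Fin n) (MonoidAlgebra S G)) (U : Subgroup G)
    (h : Fin n → G → S) (hh : h ∈ invF n S U) : mact x h ∈ invF n S U := by
  intro u hu j g
  have h1 : mrtr u h = h := by
    ext j g
    exact hh hu j g
  have h2 : mact x (mrtr u h) = mrtr u (mact x h) :=
    congrArg (fun e : AddMonoid.End (Fin n → G → S) => e h) (mact_comm_mrtr x u).eq
  rw [h1] at h2
  have := congrFun (congrFun h2 j) g
  rw [mrtr_apply] at this
  exact this.symm

/-- `x` annihilates all `U`-invariant tuples. -/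
def Kills (x : Matrix (Fin n) (Fin n) (MonoidAlgebra S G)) (U : Subgroup G) : Prop :=
  ∀ h ∈ invF n S U, mact x h = 0

/-- The step lemma: from `U` to the kernel of a nontrivial character `U → ℤ/p`. -/
theorem kills_step {p : ℕ} [hp : Fact p.Prime] [CharP S p]
    (f : Matrix (Fin n) (Fin n) (MonoidAlgebra S G)) (hff : f * f = f) (U : Subgroup G)
    (φ : U →* Multiplicative (ZMod p)) (hφ : φ ≠ 1) (hU : Kills f U) :
    Kills f (φ.ker.map U.subtype) := by
  classical
  -- choose `c` with `φ c ≠ 1`
  obtain ⟨c, hc⟩ : ∃ c : U, φ c ≠ 1 := by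
    by_contra hcon
    push Not at hcon
    exact hφ (MonoidHom.ext hcon)
  have hW : ∀ w : Fin n → G → S, p • w = 0 := by
    intro w
    ext j g
    simp
  have hcard : Nat.card (Multiplicative (ZMod p)) = p := by
    simp [Nat.card_eq_fintype_card, ZMod.card]
  refine abstract_step hp.out hW (mact f) (mrtr (c : G)) ?_ (mact_comm_mrtr f c)
    (invF n S (φ.ker.map U.subtype)) (fun w hw => mact_mem_invF f _ w hw) ?_ ?_ ?_
  · rw [← mact_mul, hff]
  · -- `mrtr c` preserves invariance since `c` normalises the kernel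
    intro w hw u hu j g
    obtain ⟨v, hv, rfl⟩ := hu
    rw [mrtr_apply, mrtr_apply]
    have hmem : ((c⁻¹ * v * c : U) : G) ∈ φ.ker.map U.subtype := by
      refine ⟨c⁻¹ * v * c, ?_, rfl⟩
      have hv' : φ v = 1 := hv
      change φ (c⁻¹ * v * c) = 1
      simp [hv']
    have := hw hmem j (g * c)
    rw [← this]
    congr 1
    simp [mul_assoc]
  · intro w hw
    rw [mrtr_pow]
    ext j g
    rw [mrtr_apply]
    refine hw ?_ j g
    refine ⟨c ^ p, ?_, by simp⟩
    change φ (c ^ p) = 1
    rw [map_pow]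
    have := pow_card_eq_one' (x := φ c)
    rwa [hcard] at this
  · intro w hw hcw
    apply hU
    intro u hu
    have hcs : (c : G) ∈ stab w := by
      intro j g
      have := congrFun (congrFun hcw j) g
      rwa [mrtr_apply] at this
    have hgen : φ ⟨u, hu⟩ ∈ Subgroup.zpowers (φ c) := mem_zpowers_of_prime_card hcard hc
    obtain ⟨k, hk⟩ := hgen
    have hk' : φ (c ^ k) = φ ⟨u, hu⟩ := by rw [map_zpow]; exact hk
    have hmem : (((c ^ k)⁻¹ * ⟨u, hu⟩ : U) : G) ∈ φ.ker.map U.subtype := by
      refine ⟨(c ^ k)⁻¹ * ⟨u, hu⟩, ?_, rfl⟩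
      change φ ((c ^ k)⁻¹ * ⟨u, hu⟩) = 1
      rw [map_mul, map_inv, hk', inv_mul_cancel]
    have h1 : ((c : G) ^ k) ∈ stab w := (stab w).zpow_mem hcs k
    have h2 := (stab w).mul_mem h1 (hw hmem)
    have h3 : (c : G) ^ k * (((c ^ k)⁻¹ * ⟨u, hu⟩ : U) : G) = u := by
      simp
    rwa [h3] at h2


/-- In a nonempty chain of subgroups, a finite set missing the intersection misses a member. -/
theorem chain_avoid (C : Set (Subgroup G)) (hC : IsChain (· ≤ ·) C) (hne : C.Nonempty)
    (B : Finset G) (hB : ∀ x ∈ B, x ∉ sInf C) : ∃ U ∈ C, ∀ x ∈ B, x ∉ U := by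
  classical
  induction B using Finset.induction_on with
  | empty => obtain ⟨U, hU⟩ := hne; exact ⟨U, hU, by simp⟩
  | insert a B _ ih =>
    obtain ⟨U₁, hU₁, h₁⟩ := ih (fun x hx => hB x (Finset.mem_insert_of_mem hx))
    have ha : a ∉ sInf C := hB a (Finset.mem_insert_self a B)
    rw [Subgroup.mem_sInf] at ha
    push Not at ha
    obtain ⟨U₂, hU₂, h₂⟩ := ha
    rcases hC.total hU₁ hU₂ with h | h
    · refine ⟨U₁, hU₁, ?_⟩
      intro x hx
      rcases Finset.mem_insert.mp hx with rfl | hx
      · exact fun hx1 => h₂ (h hx1)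
      · exact h₁ x hx
    · refine ⟨U₂, hU₂, ?_⟩
      intro x hx
      rcases Finset.mem_insert.mp hx with rfl | hx
      · exact h₂
      · exact fun hx2 => h₁ x hx (h hx2)

/-- The value of `mact x h` at `(i, g)` only depends on the values of `h` on a finite set. -/
theorem mact_congr (x : Matrix (Fin n) (Fin n) (MonoidAlgebra S G)) (h h' : Fin n → G → S)
    (i : Fin n) (g : G)
    (hh : ∀ j, ∀ y ∈ (x i j).coeff.support, h j (y⁻¹ * g) = h' j (y⁻¹ * g)) :
    mact x h i g = mact x h' i g := by
  rw [mact_apply, mact_apply, Finset.sum_apply, Finset.sum_apply]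
  refine Finset.sum_congr rfl fun j _ => ?_
  rw [convHom_apply, convHom_apply]
  refine Finset.sum_congr rfl fun y hy => ?_
  have := hh j y hy
  simp only [this]

/-- The finite set of points at which `mact f h i g` reads the tuple `h`. -/
noncomputable def pts [DecidableEq G] (f : Matrix (Fin n) (Fin n) (MonoidAlgebra S G)) (i : Fin n)
    (g : G) : Finset G :=
  (Finset.univ : Finset (Fin n)).biUnion (fun j => (f i j).coeff.support.image (fun y => y⁻¹ * g))

/-- Transfer principle: if `f` kills the `U`-invariant tuples and on the finite set of relevant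
points the `U`-cosets agree with the `V`-cosets, then `mact f h i g = 0` for `V`-invariant `h`. -/
theorem kills_transfer [DecidableEq G] (f : Matrix (Fin n) (Fin n) (MonoidAlgebra S G))
    (U V : Subgroup G) (hk : Kills f U) (h : Fin n → G → S) (hh : h ∈ invF n S V) (i : Fin n) (g : G)
    (hUP : ∀ a ∈ pts f i g, ∀ b ∈ pts f i g, a⁻¹ * b ∈ U → a⁻¹ * b ∈ V) : mact f h i g = 0 := by
  classical
  set P := pts f i g with hP
  -- the modified function
  let h' : Fin n → G → S := fun j z =>
    if hz : ∃ a ∈ P, a⁻¹ * z ∈ U then h j hz.choose else 0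
  have hval : ∀ j z a, a ∈ P → a⁻¹ * z ∈ U → h' j z = h j a := by
    intro j z a ha haz
    have hz : ∃ a ∈ P, a⁻¹ * z ∈ U := ⟨a, ha, haz⟩
    have h1 : h' j z = h j hz.choose := dif_pos hz
    rw [h1]
    obtain ⟨hb, hbz⟩ := hz.choose_spec
    have h2 : a⁻¹ * hz.choose ∈ U := by
      have := U.mul_mem haz (U.inv_mem hbz)
      simpa [mul_assoc] using this
    have h3 := hUP a ha _ hb h2
    have h4 := hh h3 j a
    rw [mul_inv_cancel_left] at h4
    exact h4
  have hinv : h' ∈ invF n S U := by
    intro u hu j z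
    by_cases hz : ∃ a ∈ P, a⁻¹ * z ∈ U
    · obtain ⟨a, ha, haz⟩ := hz
      rw [hval j z a ha haz, hval j (z * u) a ha (by rw [← mul_assoc]; exact U.mul_mem haz hu)]
    · have hz' : ¬ ∃ a ∈ P, a⁻¹ * (z * u) ∈ U := by
        rintro ⟨a, ha, haz⟩
        apply hz
        refine ⟨a, ha, ?_⟩
        have := U.mul_mem haz (U.inv_mem hu)
        simpa [mul_assoc] using this
      have e1 : h' j z = 0 := dif_neg hz
      have e2 : h' j (z * u) = 0 := dif_neg hz'
      rw [e1, e2]
  have hagree : mact f h i g = mact f h' i g := by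
    apply mact_congr
    intro j y hy
    have hyP : y⁻¹ * g ∈ P := by
      refine Finset.mem_biUnion.mpr ⟨j, Finset.mem_univ j, ?_⟩
      exact Finset.mem_image.mpr ⟨y, hy, rfl⟩
    rw [hval j (y⁻¹ * g) (y⁻¹ * g) hyP (by simp)]
  rw [hagree, hk h' hinv]
  rfl

theorem kills_sInf (f : Matrix (Fin n) (Fin n) (MonoidAlgebra S G)) (C : Set (Subgroup G))
    (hC : IsChain (· ≤ ·) C) (hne : C.Nonempty) (hk : ∀ U ∈ C, Kills f U) : Kills f (sInf C) := by
  classical
  intro h hh
  ext i g
  let P : Finset G := pts f i g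
  let B : Finset G := ((P ×ˢ P).image (fun ab => ab.1⁻¹ * ab.2)).filter (fun x => x ∉ sInf C)
  obtain ⟨U, hU, hUB⟩ := chain_avoid C hC hne B (fun x hx => (Finset.mem_filter.mp hx).2)
  refine kills_transfer f U (sInf C) (hk U hU) h hh i g ?_
  intro a ha b hb hab
  by_contra hcon
  refine hUB (a⁻¹ * b) ?_ hab
  refine Finset.mem_filter.mpr ⟨?_, hcon⟩
  exact Finset.mem_image.mpr ⟨(a, b), Finset.mem_product.mpr ⟨ha, hb⟩, rfl⟩

/-- If `f` kills the `M`-invariant tuples, `M` normal, then it already kills the tuples invariant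
under the normal closure of a suitable finite subset of `M`. -/
theorem kills_normalClosure (f : Matrix (Fin n) (Fin n) (MonoidAlgebra S G)) (M : Subgroup G)
    [hM : M.Normal] (hk : Kills f M) :
    ∃ B : Finset G, (B : Set G) ⊆ M ∧ Kills f (Subgroup.normalClosure (B : Set G)) := by
  classical
  let Y : Finset G := (Finset.univ : Finset (Fin n)).biUnion
    (fun i => (Finset.univ : Finset (Fin n)).biUnion (fun j => (f i j).coeff.support))
  let B : Finset G := ((Y ×ˢ Y).image (fun ab => ab.1 * ab.2⁻¹)).filter (fun x => x ∈ M)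
  refine ⟨B, ?_, ?_⟩
  · intro x hx
    exact (Finset.mem_filter.mp (Finset.mem_coe.mp hx)).2
  · intro h hh
    ext i g
    refine kills_transfer f M _ hk h hh i g ?_
    intro a ha b hb hab
    obtain ⟨j, _, ha⟩ := Finset.mem_biUnion.mp ha
    obtain ⟨y, hy, rfl⟩ := Finset.mem_image.mp ha
    obtain ⟨j', _, hb⟩ := Finset.mem_biUnion.mp hb
    obtain ⟨y', hy', rfl⟩ := Finset.mem_image.mp hb
    have e : (y⁻¹ * g)⁻¹ * (y'⁻¹ * g) = g⁻¹ * (y * y'⁻¹) * g⁻¹⁻¹ := by
      simp [mul_assoc]
    rw [e] at hab ⊢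
    have h1 : y * y'⁻¹ ∈ M := by
      have := hM.conj_mem _ hab g
      simpa [mul_assoc] using this
    have hyY : y ∈ Y := Finset.mem_biUnion.mpr ⟨i, Finset.mem_univ i,
      Finset.mem_biUnion.mpr ⟨j, Finset.mem_univ j, hy⟩⟩
    have hyY' : y' ∈ Y := Finset.mem_biUnion.mpr ⟨i, Finset.mem_univ i,
      Finset.mem_biUnion.mpr ⟨j', Finset.mem_univ j', hy'⟩⟩
    have h2 : y * y'⁻¹ ∈ B := Finset.mem_filter.mpr
      ⟨Finset.mem_image.mpr ⟨(y, y'), Finset.mem_product.mpr ⟨hyY, hyY'⟩, rfl⟩, h1⟩
    have h3 : y * y'⁻¹ ∈ Subgroup.normalClosure (B : Set G) :=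
      Subgroup.subset_normalClosure (Finset.mem_coe.mpr h2)
    exact Subgroup.normalClosure_normal.conj_mem _ h3 g⁻¹

theorem kills_of_map_eq_zero (N : Subgroup G) [N.Normal]
    (f : Matrix (Fin n) (Fin n) (MonoidAlgebra S G))
    (hf : (mapDomainRingHom S (QuotientGroup.mk' N)).mapMatrix f = 0) : Kills f N := by
  intro h hh
  ext i g
  rw [mact_apply, Finset.sum_apply]
  refine Finset.sum_eq_zero fun j _ => ?_
  -- descend `h j` to the quotient
  let hbar : G ⧸ N → S := fun q => Quotient.liftOn' q (h j) (by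
    intro a b hab
    have hab' : a⁻¹ * b ∈ N := QuotientGroup.leftRel_apply.mp hab
    have := hh hab' j a
    rw [mul_inv_cancel_left] at this
    exact this.symm)
  have h1 : h j = fun a => hbar (QuotientGroup.mk a) := by
    ext a; rfl
  rw [h1, convHom_quot]
  have h2 : mapDomainRingHom S (QuotientGroup.mk' N) (f i j) = 0 := by
    have := congrFun (congrFun hf i) j
    simpa using this
  rw [h2]
  simp

theorem eq_zero_of_kills_bot (f : Matrix (Fin n) (Fin n) (MonoidAlgebra S G))
    (hf : Kills f ⊥) : f = 0 := by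
  classical
  ext i j g
  have h0 := hf (Pi.single j (Pi.single 1 1)) (by
    rw [mem_invF]; exact bot_le)
  have h1 := congrFun (congrFun h0 i) g
  rw [mact_apply, Finset.sum_apply, Finset.sum_eq_single j] at h1
  · rw [Pi.single_eq_same, convHom_delta] at h1
    simpa using h1
  · intro b _ hb
    rw [Pi.single_eq_of_ne hb]
    simp
  · intro hj; exact absurd (Finset.mem_univ j) hj


/-- Descent lemma (Zorn): from `U` down to `V`, if every intermediate subgroup `L ≠ V` has a
nontrivial character to `ℤ/p` that is trivial on `V`. -/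
theorem kills_descent {p : ℕ} [Fact p.Prime] [CharP S p]
    (f : Matrix (Fin n) (Fin n) (MonoidAlgebra S G)) (hff : f * f = f) (U V : Subgroup G)
    (hVU : V ≤ U) (hk : Kills f U)
    (hstep : ∀ L : Subgroup G, V ≤ L → L ≤ U → L ≠ V →
      ∃ ψ : L →* Multiplicative (ZMod p), ψ ≠ 1 ∧ V ≤ ψ.ker.map L.subtype) : Kills f V := by
  let s : Set (Subgroup G)ᵒᵈ :=
    {L | V ≤ OrderDual.ofDual L ∧ OrderDual.ofDual L ≤ U ∧ Kills f (OrderDual.ofDual L)}
  obtain ⟨m, hm⟩ : ∃ m, Maximal (· ∈ s) m := by
    apply zorn_le₀ s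
    intro c hcs hc
    rcases c.eq_empty_or_nonempty with rfl | hne
    · exact ⟨OrderDual.toDual U, ⟨hVU, le_rfl, hk⟩, by simp⟩
    · let C : Set (Subgroup G) := OrderDual.toDual ⁻¹' c
      have hCchain : IsChain (· ≤ ·) C := by
        intro a ha b hb hab
        have := hc (x := OrderDual.toDual a) ha (y := OrderDual.toDual b) hb
          (by intro h; exact hab (OrderDual.toDual.injective h))
        rcases this with h | h
        · exact Or.inr h
        · exact Or.inl h
      have hCne : C.Nonempty := by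
        obtain ⟨u, hu⟩ := hne
        exact ⟨OrderDual.ofDual u, hu⟩
      refine ⟨OrderDual.toDual (sInf C), ⟨?_, ?_, ?_⟩, ?_⟩
      · exact le_sInf (fun L hL => (hcs hL).1)
      · obtain ⟨u, hu⟩ := hCne
        exact (sInf_le hu).trans (hcs hu).2.1
      · exact kills_sInf f C hCchain hCne (fun L hL => (hcs hL).2.2)
      · intro z hz
        exact sInf_le (a := OrderDual.ofDual z) hz
  set L : Subgroup G := OrderDual.ofDual m with hLdef
  have hLs : V ≤ L ∧ L ≤ U ∧ Kills f L := hm.prop
  by_cases hLV : L = V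
  · exact hLV ▸ hLs.2.2
  · exfalso
    obtain ⟨ψ, hψ, hVψ⟩ := hstep L hLs.1 hLs.2.1 hLV
    have hstep' := kills_step f hff L ψ hψ hLs.2.2
    have hle : ψ.ker.map L.subtype ≤ L := by
      rintro _ ⟨v, _, rfl⟩
      exact v.2
    have hmem : OrderDual.toDual (ψ.ker.map L.subtype) ∈ s := ⟨hVψ, hle.trans hLs.2.1, hstep'⟩
    have hge : L ≤ ψ.ker.map L.subtype := hm.le_of_ge hmem hle
    apply hψ
    refine MonoidHom.ext fun u => ?_
    obtain ⟨v, hv, hvu⟩ := hge u.2
    have : v = u := Subtype.ext hvu
    rw [← this]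
    exact MonoidHom.mem_ker.mp hv

/-- Main vanishing theorem: an idempotent matrix over `S[G]` (`char S = p`) that dies in
`S[G ⧸ N]` is zero, provided every nontrivial normal closure (in `G`) of a finite subset of `N`
has a nontrivial character to `ℤ/p`. -/
theorem idem_eq_zero {p : ℕ} [Fact p.Prime] [CharP S p] (N : Subgroup G) [hNn : N.Normal]
    (hN : ∀ B : Finset G, (B : Set G) ⊆ N → Subgroup.normalClosure (B : Set G) ≠ ⊥ →
      ∃ φ : Subgroup.normalClosure (B : Set G) →* Multiplicative (ZMod p), φ ≠ 1)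
    (f : Matrix (Fin n) (Fin n) (MonoidAlgebra S G)) (hff : f * f = f) (hk : Kills f N) :
    f = 0 := by
  let s : Set (Subgroup G)ᵒᵈ :=
    {M | (OrderDual.ofDual M).Normal ∧ OrderDual.ofDual M ≤ N ∧ Kills f (OrderDual.ofDual M)}
  obtain ⟨m, hm⟩ : ∃ m, Maximal (· ∈ s) m := by
    apply zorn_le₀ s
    intro c hcs hc
    rcases c.eq_empty_or_nonempty with rfl | hne
    · exact ⟨OrderDual.toDual N, ⟨hNn, le_rfl, hk⟩, by simp⟩
    · let C : Set (Subgroup G) := OrderDual.toDual ⁻¹' c
      have hCchain : IsChain (· ≤ ·) C := by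
        intro a ha b hb hab
        have := hc (x := OrderDual.toDual a) ha (y := OrderDual.toDual b) hb
          (by intro h; exact hab (OrderDual.toDual.injective h))
        rcases this with h | h
        · exact Or.inr h
        · exact Or.inl h
      have hCne : C.Nonempty := by
        obtain ⟨u, hu⟩ := hne
        exact ⟨OrderDual.ofDual u, hu⟩
      refine ⟨OrderDual.toDual (sInf C), ⟨?_, ?_, ?_⟩, ?_⟩
      · constructor
        intro x hx g
        change g * x * g⁻¹ ∈ sInf C
        change x ∈ sInf C at hx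
        rw [Subgroup.mem_sInf] at hx ⊢
        intro L hL
        exact (hcs hL).1.conj_mem x (hx L hL) g
      · obtain ⟨u, hu⟩ := hCne
        exact (sInf_le hu).trans (hcs hu).2.1
      · exact kills_sInf f C hCchain hCne (fun L hL => (hcs hL).2.2)
      · intro z hz
        exact sInf_le (a := OrderDual.ofDual z) hz
  set M₀ : Subgroup G := OrderDual.ofDual m with hM₀def
  obtain ⟨hMn₀, hMN₀, hMk₀⟩ : M₀.Normal ∧ M₀ ≤ N ∧ Kills f M₀ := hm.prop
  by_cases hbot₀ : M₀ = ⊥
  · exact eq_zero_of_kills_bot f (hbot₀ ▸ hMk₀)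
  · exfalso
    -- `M₀` is the normal closure of a finite set
    obtain ⟨B, hBM, hMk⟩ := kills_normalClosure f M₀ hMk₀
    have hN' := hN B (hBM.trans hMN₀)
    set M := Subgroup.normalClosure (B : Set G) with hMdef
    have hle : M ≤ M₀ := Subgroup.normalClosure_le_normal hBM
    have hMn : M.Normal := Subgroup.normalClosure_normal
    have hMN : M ≤ N := hle.trans hMN₀
    have hmem : OrderDual.toDual M ∈ s := ⟨hMn, hMN, hMk⟩
    have hge : M₀ ≤ M := hm.le_of_ge hmem hle
    have hMeq : M₀ = M := le_antisymm hge hle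
    obtain ⟨φ, hφ⟩ := hN' (hMeq ▸ hbot₀)
    -- the normal core of the kernel
    let M₁ : Subgroup G := (φ.ker.map M.subtype).normalCore
    have hker_le : φ.ker.map M.subtype ≤ M := by
      rintro _ ⟨v, _, rfl⟩
      exact v.2
    have hM₁M : M₁ ≤ M := (Subgroup.normalCore_le _).trans hker_le
    have hM₁k : Kills f M₁ := by
      refine kills_descent (p := p) f hff M M₁ hM₁M hMk ?_
      intro L hM₁L hLM hne
      obtain ⟨u, huL, huM₁⟩ : ∃ u ∈ L, u ∉ M₁ := by
        by_contra hcon
        push Not at hcon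
        exact hne (le_antisymm hcon hM₁L)
      obtain ⟨b, hb⟩ : ∃ b : G, b * u * b⁻¹ ∉ φ.ker.map M.subtype := by
        by_contra hcon
        push Not at hcon
        exact huM₁ hcon
      let γ : L →* M :=
        { toFun := fun x => ⟨b * x * b⁻¹, hMn.conj_mem x (hLM x.2) b⟩
          map_one' := by ext; simp
          map_mul' := by intro x y; ext; simp [mul_assoc] }
      refine ⟨φ.comp γ, ?_, ?_⟩
      · intro h1
        apply hb
        refine ⟨γ ⟨u, huL⟩, ?_, rfl⟩
        have := congrArg (fun e : L →* Multiplicative (ZMod p) => e ⟨u, huL⟩) h1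
        exact this
      · intro x hx
        refine ⟨⟨x, hM₁L hx⟩, ?_, rfl⟩
        obtain ⟨v, hv, hvx⟩ := hx b
        change φ (γ ⟨x, hM₁L hx⟩) = 1
        have : γ ⟨x, hM₁L hx⟩ = v := Subtype.ext hvx.symm
        rw [this]
        exact hv
    have hmem₁ : OrderDual.toDual M₁ ∈ s :=
      ⟨Subgroup.normalCore_normal _, hM₁M.trans hMN, hM₁k⟩
    have hge₁ : M ≤ M₁ := hle.trans (hm.le_of_ge hmem₁ (hM₁M.trans hle))
    apply hφ
    refine MonoidHom.ext fun u => ?_
    obtain ⟨v, hv, hvu⟩ := (Subgroup.normalCore_le _) (hge₁ u.2)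
    have : v = u := Subtype.ext hvu
    rw [← this]
    exact MonoidHom.mem_ker.mp hv

/-- Extension theorem, level `n`. -/
theorem dedekindFinite_matrix_of_quotient {p : ℕ} [Fact p.Prime] [CharP S p] (N : Subgroup G)
    [N.Normal]
    (hN : ∀ B : Finset G, (B : Set G) ⊆ N → Subgroup.normalClosure (B : Set G) ≠ ⊥ →
      ∃ φ : Subgroup.normalClosure (B : Set G) →* Multiplicative (ZMod p), φ ≠ 1)
    (hQ : IsDedekindFiniteMonoid (Matrix (Fin n) (Fin n) (MonoidAlgebra S (G ⧸ N)))) :
    IsDedekindFiniteMonoid (Matrix (Fin n) (Fin n) (MonoidAlgebra S G)) := by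
  constructor
  intro a b hab
  let π := (mapDomainRingHom S (QuotientGroup.mk' N)).mapMatrix (m := Fin n)
  have h1 : π a * π b = 1 := by rw [← map_mul, hab, map_one]
  have h2 : π b * π a = 1 := mul_eq_one_symm h1
  have hff : (1 - b * a) * (1 - b * a) = 1 - b * a := by
    have : b * a * (b * a) = b * a := by
      rw [mul_assoc, ← mul_assoc a b a, hab, one_mul]
    rw [mul_sub, sub_mul, sub_mul, this]
    simp
  have hk : Kills (1 - b * a) N := by
    apply kills_of_map_eq_zero
    change π (1 - b * a) = 0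
    rw [map_sub, map_one, map_mul, h2, sub_self]
  have := idem_eq_zero N hN (1 - b * a) hff hk
  exact (sub_eq_zero.mp this).symm


/-- Extension theorem for direct finiteness. -/
theorem dedekindFinite_of_quotient {p : ℕ} [Fact p.Prime] [CharP S p] (N : Subgroup G)
    [N.Normal]
    (hN : ∀ B : Finset G, (B : Set G) ⊆ N → Subgroup.normalClosure (B : Set G) ≠ ⊥ →
      ∃ φ : Subgroup.normalClosure (B : Set G) →* Multiplicative (ZMod p), φ ≠ 1)
    (hQ : IsDedekindFiniteMonoid (MonoidAlgebra S (G ⧸ N))) :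
    IsDedekindFiniteMonoid (MonoidAlgebra S G) := by
  have h1 : IsDedekindFiniteMonoid (Matrix (Fin 1) (Fin 1) (MonoidAlgebra S (G ⧸ N))) :=
    IsDedekindFiniteMonoid.of_injective
      (Matrix.uniqueRingEquiv (m := Fin 1) (A := MonoidAlgebra S (G ⧸ N))).toRingHom
      (Matrix.uniqueRingEquiv (m := Fin 1) (A := MonoidAlgebra S (G ⧸ N))).injective
  have h2 := dedekindFinite_matrix_of_quotient N hN h1
  exact IsDedekindFiniteMonoid.of_injective
      (Matrix.uniqueRingEquiv (m := Fin 1) (A := MonoidAlgebra S G)).symm.toRingHom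
      (Matrix.uniqueRingEquiv (m := Fin 1) (A := MonoidAlgebra S G)).symm.injective

/-- Extension theorem for stable finiteness. -/
theorem stablyFinite_of_quotient {p : ℕ} [Fact p.Prime] [CharP S p] (N : Subgroup G)
    [N.Normal]
    (hN : ∀ B : Finset G, (B : Set G) ⊆ N → Subgroup.normalClosure (B : Set G) ≠ ⊥ →
      ∃ φ : Subgroup.normalClosure (B : Set G) →* Multiplicative (ZMod p), φ ≠ 1)
    (hQ : IsStablyFiniteRing (MonoidAlgebra S (G ⧸ N))) :
    IsStablyFiniteRing (MonoidAlgebra S G) :=
  ⟨fun n => dedekindFinite_matrix_of_quotient N hN (hQ.isDedekindFiniteMonoid n)⟩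

/-- Absolute version. -/
theorem stablyFinite_of_top {p : ℕ} [Fact p.Prime] [CharP S p] [IsStablyFiniteRing S]
    (hG : ∀ B : Finset G, Subgroup.normalClosure (B : Set G) ≠ ⊥ →
      ∃ φ : Subgroup.normalClosure (B : Set G) →* Multiplicative (ZMod p), φ ≠ 1) :
    IsStablyFiniteRing (MonoidAlgebra S G) := by
  refine stablyFinite_of_quotient (p := p) (⊤ : Subgroup G) (fun B _ hB => hG B hB) ?_
  haveI : Subsingleton (G ⧸ (⊤ : Subgroup G)) := QuotientGroup.subsingleton_quotient_top
  exact (RingEquiv.isStablyFiniteRing_iff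
    (MonoidAlgebra.uniqueRingEquiv (R := S) (G ⧸ (⊤ : Subgroup G)))).mpr inferInstance

end Vale.Agent.Lib.P194
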