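import Mathlib

namespace Vale.Agent.Lib.P194

universe u

/-- In a Jacobson domain every nonzero element avoids some maximal ideal. -/
lemma exists_maximal_not_mem (R : Type*) [CommRing R] [IsDomain R] [IsJacobsonRing R] {c : R}
    (hc : c ≠ 0) : ∃ m : Ideal R, m.IsMaximal ∧ c ∉ m := by
  have h : (⊥ : Ideal R).jacobson = ⊥ :=
    IsJacobsonRing.out' _ (Ideal.IsPrime.isRadical Ideal.isPrime_bot)
  by_contra hcon
  push Not at hcon
  apply hc
  have h2 : c ∈ (⊥ : Ideal R).jacobson := by
    unfold Ideal.jacobson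
    exact Ideal.mem_sInf.2 fun {J} hJ => hcon J hJ.2
  rw [h] at h2
  simpa using h2

/-- The statement for a domain of finite type over `ZMod p`. -/
lemma mul_eq_one_symm_of_finiteType (p : ℕ) [Fact p.Prime] {Q : Type*} [Group Q] (n : ℕ)
    (h : ∀ (F : Type u) [Field F] [Finite F] [CharP F p],
      IsDedekindFiniteMonoid (Matrix (Fin n) (Fin n) (MonoidAlgebra F Q)))
    (R : Type u) [CommRing R] [IsDomain R] [Algebra (ZMod p) R] [Algebra.FiniteType (ZMod p) R]
    (A B : Matrix (Fin n) (Fin n) (MonoidAlgebra R Q)) (hAB : A * B = 1) : B * A = 1 := by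
  classical
  by_contra hne
  have hne' : B * A - 1 ≠ 0 := sub_ne_zero.2 hne
  have hex : ∃ i j g, ((B * A - 1) i j).coeff g ≠ 0 := by
    by_contra hcon
    push Not at hcon
    apply hne'
    ext i j g
    simpa using hcon i j g
  obtain ⟨i, j, g, hc⟩ := hex
  have : IsJacobsonRing R := isJacobsonRing_of_finiteType (A := ZMod p)
  obtain ⟨m, hm, hcm⟩ := exists_maximal_not_mem R hc
  let := Ideal.Quotient.field m
  have hfin : Module.Finite (ZMod p) (R ⧸ m) := finite_of_finite_type_of_isJacobsonRing _ _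
  have : Finite (R ⧸ m) := Module.finite_of_finite (ZMod p)
  have : CharP (R ⧸ m) p :=
    charP_of_injective_algebraMap (algebraMap (ZMod p) (R ⧸ m)).injective p
  let ψ : Matrix (Fin n) (Fin n) (MonoidAlgebra R Q) →+*
      Matrix (Fin n) (Fin n) (MonoidAlgebra (R ⧸ m) Q) :=
    (MonoidAlgebra.mapRingHom Q (Ideal.Quotient.mk m)).mapMatrix
  have h1 : ψ A * ψ B = 1 := by rw [← map_mul, hAB, map_one]
  have h2 : ψ B * ψ A = 1 := (h (R ⧸ m)).mul_eq_one_symm h1
  have h3 : ψ (B * A - 1) = 0 := by rw [map_sub, map_mul, h2, map_one, sub_self]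
  have h4 : ((ψ (B * A - 1)) i j).coeff g = 0 := by rw [h3]; simp
  have h5 : ((ψ (B * A - 1)) i j).coeff g = Ideal.Quotient.mk m (((B * A - 1) i j).coeff g) := by
    simp only [ψ, RingHom.mapMatrix_apply, Matrix.map_apply, MonoidAlgebra.coeff_mapRingHom]
  rw [h5, Ideal.Quotient.eq_zero_iff_mem] at h4
  exact hcm h4

/-- Lifting an element of a monoid algebra along a ring homomorphism whose range contains all
coefficients. -/
lemma exists_lift_monoidAlgebra {R K Q : Type*} [Semiring R] [Semiring K] [Monoid Q] (φ : R →+* K)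
    (x : MonoidAlgebra K Q) (hx : ∀ g, x.coeff g ∈ Set.range φ) :
    ∃ x' : MonoidAlgebra R Q, MonoidAlgebra.mapRingHom Q φ x' = x := by
  classical
  let σ : K → R := fun c => if h : c ≠ 0 ∧ ∃ r, φ r = c then h.2.choose else 0
  have hσ0 : σ 0 = 0 := by simp [σ]
  have hσ : ∀ c ∈ Set.range φ, φ (σ c) = c := by
    intro c hc
    by_cases h0 : c = 0
    · rw [h0, hσ0, map_zero]
    · have h : c ≠ 0 ∧ ∃ r, φ r = c := ⟨h0, hc⟩
      simp only [σ, dif_pos h]
      exact h.2.choose_spec
  refine ⟨MonoidAlgebra.ofCoeff (x.coeff.mapRange σ hσ0), ?_⟩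
  apply MonoidAlgebra.ext
  ext g
  rw [MonoidAlgebra.coeff_mapRingHom, MonoidAlgebra.coeff_ofCoeff, Finsupp.mapRange_apply]
  exact hσ _ (hx g)

lemma exists_lift_matrix {R K Q : Type*} [Semiring R] [Semiring K] [Monoid Q] (φ : R →+* K)
    {n : ℕ} (X : Matrix (Fin n) (Fin n) (MonoidAlgebra K Q))
    (hX : ∀ i j g, (X i j).coeff g ∈ Set.range φ) :
    ∃ X' : Matrix (Fin n) (Fin n) (MonoidAlgebra R Q),
      (MonoidAlgebra.mapRingHom Q φ).mapMatrix X' = X := by
  choose f hf using fun i j => exists_lift_monoidAlgebra φ (X i j) (hX i j)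
  refine ⟨Matrix.of f, ?_⟩
  ext i j
  simp [hf]

lemma mapMatrix_injective {R K Q : Type*} [Semiring R] [Semiring K] [Monoid Q] (φ : R →+* K)
    (hφ : Function.Injective φ) {n : ℕ} :
    Function.Injective ((MonoidAlgebra.mapRingHom Q φ).mapMatrix :
      Matrix (Fin n) (Fin n) (MonoidAlgebra R Q) → Matrix (Fin n) (Fin n) (MonoidAlgebra K Q)) := by
  intro X Y hXY
  ext i j g
  apply hφ
  have h := congrArg (fun Z : Matrix (Fin n) (Fin n) (MonoidAlgebra K Q) => (Z i j).coeff g) hXY
  simpa [MonoidAlgebra.coeff_mapRingHom] using h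

/-- S1. Reduction to finite fields (characteristic `p`). -/
theorem dedekindFinite_of_finite_fields (p : ℕ) [Fact p.Prime] {Q : Type*} [Group Q] (n : ℕ)
    (h : ∀ (F : Type u) [Field F] [Finite F] [CharP F p],
      IsDedekindFiniteMonoid (Matrix (Fin n) (Fin n) (MonoidAlgebra F Q)))
    (K : Type u) [Field K] [CharP K p] :
    IsDedekindFiniteMonoid (Matrix (Fin n) (Fin n) (MonoidAlgebra K Q)) := by
  classical
  refine ⟨fun {A B} hAB => ?_⟩
  let : Algebra (ZMod p) K := ZMod.algebra K p
  let s : Finset K := Finset.univ.biUnion fun i : Fin n => Finset.univ.biUnion fun j : Fin n =>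
    ((A i j).coeff.support.image (A i j).coeff) ∪ ((B i j).coeff.support.image (B i j).coeff)
  let R : Subalgebra (ZMod p) K := Algebra.adjoin (ZMod p) (s : Set K)
  have hft : Algebra.FiniteType (ZMod p) R :=
    (Subalgebra.fg_iff_finiteType R).1 (Subalgebra.fg_adjoin_finset s)
  have hrange : ∀ c : K, c ∈ R → c ∈ Set.range (algebraMap R K) := fun c hc => ⟨⟨c, hc⟩, rfl⟩
  have hA : ∀ i j g, (A i j).coeff g ∈ Set.range (algebraMap R K) := by
    intro i j g
    apply hrange
    by_cases h0 : (A i j).coeff g = 0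
    · rw [h0]; exact R.zero_mem
    · apply Algebra.subset_adjoin
      simp only [s, Finset.coe_biUnion, Set.mem_iUnion]
      refine ⟨i, Finset.mem_coe.2 (Finset.mem_univ i), j, Finset.mem_coe.2 (Finset.mem_univ j), ?_⟩
      exact Finset.mem_coe.2 (Finset.mem_union_left _
        (Finset.mem_image_of_mem _ (Finsupp.mem_support_iff.2 h0)))
  have hB : ∀ i j g, (B i j).coeff g ∈ Set.range (algebraMap R K) := by
    intro i j g
    apply hrange
    by_cases h0 : (B i j).coeff g = 0
    · rw [h0]; exact R.zero_mem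
    · apply Algebra.subset_adjoin
      simp only [s, Finset.coe_biUnion, Set.mem_iUnion]
      refine ⟨i, Finset.mem_coe.2 (Finset.mem_univ i), j, Finset.mem_coe.2 (Finset.mem_univ j), ?_⟩
      exact Finset.mem_coe.2 (Finset.mem_union_right _
        (Finset.mem_image_of_mem _ (Finsupp.mem_support_iff.2 h0)))
  obtain ⟨A', hA'⟩ := exists_lift_matrix (algebraMap R K) A hA
  obtain ⟨B', hB'⟩ := exists_lift_matrix (algebraMap R K) B hB
  have hinj := mapMatrix_injective (Q := Q) (n := n) (algebraMap R K) Subtype.val_injective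
  have h1 : A' * B' = 1 := by
    apply hinj
    rw [map_mul, hA', hB', hAB, map_one]
  have h2 : B' * A' = 1 := mul_eq_one_symm_of_finiteType p n h R A' B' h1
  rw [← hA', ← hB', ← map_mul, h2, map_one]

end Vale.Agent.Lib.P194
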