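import Mathlib

namespace Vale.Agent.Lib.P194

/-- In a vector space over `ZMod p` every nonzero vector is detected by an additive map. -/
theorem exists_addHom_ne_zero (p : ℕ) [Fact p.Prime] (Q : Type*) [AddCommGroup Q]
    [Module (ZMod p) Q] {x : Q} (hx : x ≠ 0) : ∃ f : Q →+ ZMod p, f x ≠ 0 := by
  obtain ⟨f, hf⟩ := Module.Projective.exists_dual_ne_zero (ZMod p) hx
  exact ⟨f.toAddMonoidHom, hf⟩

/-- A nontrivial finitely generated abelian group without elements of finite order prime to `p`
has a nonzero additive character to `ZMod p`. -/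
theorem exists_addChar_of_fg (p : ℕ) [Fact p.Prime] (A : Type*) [AddCommGroup A]
    [Module.Finite ℤ A] (hnt : ∃ x : A, x ≠ 0)
    (htor : ∀ a : A, ∀ k : ℕ, 0 < k → k.Coprime p → k • a = 0 → a = 0) :
    ∃ φ : A →+ ZMod p, φ ≠ 0 := by
  classical
  have hp : p.Prime := Fact.out
  let S : AddSubgroup A := (zsmulAddGroupHom (α := A) (p : ℤ)).range
  by_cases hS : S = ⊤
  · exfalso
    -- Nakayama
    have hle : (⊤ : Submodule ℤ A) ≤ Ideal.span {(p : ℤ)} • (⊤ : Submodule ℤ A) := by
      intro x _
      have hx : x ∈ S := by rw [hS]; trivial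
      obtain ⟨y, hy⟩ := hx
      have hy' : (p : ℤ) • y = x := hy
      rw [← hy']
      exact Submodule.smul_mem_smul (Ideal.subset_span rfl) trivial
    obtain ⟨r, hr1, hr2⟩ := Submodule.exists_sub_one_mem_and_smul_eq_zero_of_fg_of_le_smul
      (Ideal.span {(p : ℤ)}) (⊤ : Submodule ℤ A) Module.Finite.fg_top hle
    rw [Ideal.mem_span_singleton] at hr1
    have hcop : IsCoprime r (p : ℤ) := by
      obtain ⟨c, hc⟩ := hr1
      exact ⟨1, -c, by linarith⟩
    have hcop' : (r.natAbs).Coprime p := by
      have := Int.isCoprime_iff_gcd_eq_one.mp hcop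
      simpa [Int.gcd] using this
    have hr0 : 0 < r.natAbs := by
      rcases Nat.eq_zero_or_pos r.natAbs with h | h
      · rw [h] at hcop'
        simp at hcop'
        exact absurd hcop' hp.one_lt.ne'
      · exact h
    obtain ⟨x, hx⟩ := hnt
    apply hx
    apply htor x r.natAbs hr0 hcop'
    have h1 : r • x = 0 := hr2 x trivial
    rcases Int.natAbs_eq r with h | h
    · rw [h] at h1
      simpa using h1
    · rw [h] at h1
      simpa using h1
  · have hex : ∃ a : A, a ∉ S := by
      by_contra hcon
      exact hS (eq_top_iff.mpr fun x _ => by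
        by_contra hx
        exact hcon ⟨x, hx⟩)
    obtain ⟨a, ha⟩ := hex
    have hkill : ∀ q : A ⧸ S, p • q = 0 := by
      intro q
      induction q using QuotientAddGroup.induction_on with
      | H z =>
        rw [← QuotientAddGroup.mk_nsmul, QuotientAddGroup.eq_zero_iff]
        exact ⟨z, by simp⟩
    let inst : Module (ZMod p) (A ⧸ S) := AddCommGroup.zmodModule hkill
    have hane : (QuotientAddGroup.mk a : A ⧸ S) ≠ 0 := by
      rw [Ne, QuotientAddGroup.eq_zero_iff]
      exact ha
    obtain ⟨f, hf⟩ := exists_addHom_ne_zero p (A ⧸ S) hane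
    refine ⟨f.comp (QuotientAddGroup.mk' S), ?_⟩
    intro h
    apply hf
    have := DFunLike.congr_fun h a
    simpa using this

/-- Multiplicative form of `exists_addChar_of_fg`. -/
theorem exists_char_of_commGroup_fg (p : ℕ) [Fact p.Prime] (M : Type*) [CommGroup M]
    [Group.FG M] (hnt : ∃ x : M, x ≠ 1)
    (htor : ∀ a : M, ∀ k : ℕ, 0 < k → k.Coprime p → a ^ k = 1 → a = 1) :
    ∃ φ : M →* Multiplicative (ZMod p), φ ≠ 1 := by
  have hfin : Module.Finite ℤ (Additive M) := Module.Finite.iff_addGroup_fg.mpr inferInstance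
  obtain ⟨x, hx⟩ := hnt
  obtain ⟨φ, hφ⟩ := exists_addChar_of_fg p (Additive M) ⟨Additive.ofMul x, hx⟩
    (fun a k hk hkp h => htor (Additive.toMul a) k hk hkp h)
  refine ⟨AddMonoidHom.toMultiplicativeRight φ, ?_⟩
  intro h
  apply hφ
  ext a
  have := DFunLike.congr_fun h (Additive.toMul a)
  exact this

/-- A subgroup contained in the centre is normal. -/
theorem normal_of_le_center {G : Type*} [Group G] (A : Subgroup G)
    (hA : A ≤ Subgroup.center G) : A.Normal := by
  constructor
  intro a ha g
  have hc : g * a = a * g := (Subgroup.mem_center_iff.mp (hA ha)) g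
  rw [hc, mul_assoc, mul_inv_cancel, mul_one]
  exact ha

/-- T6. Central kernels without elements of finite order prime to `p` satisfy the hypothesis of the
extension theorem. -/
theorem central_kernel_hyp (p : ℕ) [Fact p.Prime] {G : Type*} [Group G] (A : Subgroup G)
    (hA : A ≤ Subgroup.center G)
    (htor : ∀ a ∈ A, ∀ k : ℕ, 0 < k → k.Coprime p → a ^ k = 1 → a = 1) :
    ∀ B : Finset G, (B : Set G) ⊆ A → Subgroup.normalClosure (B : Set G) ≠ ⊥ →
      ∃ φ : Subgroup.normalClosure (B : Set G) →* Multiplicative (ZMod p), φ ≠ 1 := by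
  intro B hB hne
  have hAn : A.Normal := normal_of_le_center A hA
  have hleA : Subgroup.normalClosure (B : Set G) ≤ A := Subgroup.normalClosure_le_normal hB
  have hclA : Subgroup.closure (B : Set G) ≤ A := (Subgroup.closure_le A).mpr hB
  have hcln : (Subgroup.closure (B : Set G)).Normal :=
    normal_of_le_center _ (hclA.trans hA)
  have heq : Subgroup.normalClosure (B : Set G) = Subgroup.closure (B : Set G) :=
    le_antisymm (Subgroup.normalClosure_le_normal Subgroup.subset_closure)
      Subgroup.closure_le_normalClosure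
  have hfg : (Subgroup.normalClosure (B : Set G)).FG := ⟨B, heq.symm⟩
  have hfg' : Group.FG (Subgroup.normalClosure (B : Set G)) :=
    (Group.fg_iff_subgroup_fg _).mpr hfg
  let inst : CommGroup (Subgroup.normalClosure (B : Set G)) :=
    { (inferInstance : Group (Subgroup.normalClosure (B : Set G))) with
      mul_comm := by
        intro x y
        apply Subtype.ext
        exact ((Subgroup.mem_center_iff.mp (hA (hleA y.2))) x.1) }
  obtain ⟨⟨y, hy⟩, hy0⟩ := (Subgroup.ne_bot_iff_exists_ne_one).mp hne
  exact exists_char_of_commGroup_fg p (Subgroup.normalClosure (B : Set G)) ⟨⟨y, hy⟩, hy0⟩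
    (fun a k hk hkp h => Subtype.ext (htor a.1 (hleA a.2) k hk hkp (congrArg Subtype.val h)))

end Vale.Agent.Lib.P194
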