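import Mathlib

namespace Vale.Agent.Lib.P194

/-- A nontrivial free group has a nontrivial character to `ZMod p`. -/
theorem exists_char_of_isFreeGroup (p : ℕ) [Fact p.Prime] (F : Type*) [Group F] [IsFreeGroup F]
    (hF : ∃ x : F, x ≠ 1) : ∃ φ : F →* Multiplicative (ZMod p), φ ≠ 1 := by
  classical
  by_cases hemp : IsEmpty (IsFreeGroup.Generators F)
  · exfalso
    obtain ⟨x, hx⟩ := hF
    apply hx
    have h1 : IsFreeGroup.toFreeGroup F x = IsFreeGroup.toFreeGroup F 1 := Subsingleton.elim _ _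
    exact (IsFreeGroup.toFreeGroup F).injective h1
  · rw [not_isEmpty_iff] at hemp
    obtain ⟨a⟩ := hemp
    refine ⟨IsFreeGroup.lift (fun _ => Multiplicative.ofAdd (1 : ZMod p)), ?_⟩
    intro h
    have h1 := DFunLike.congr_fun h (IsFreeGroup.of a)
    rw [IsFreeGroup.lift_of, MonoidHom.one_apply] at h1
    have h2 : (1 : ZMod p) = 0 := by
      have := congrArg Multiplicative.toAdd h1
      exact this
    exact one_ne_zero h2

/-- T5. Free kernels satisfy the hypothesis of the extension theorem. -/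
theorem free_kernel_hyp (p : ℕ) [Fact p.Prime] {G : Type*} [Group G] (N : Subgroup G) [N.Normal]
    [IsFreeGroup N] :
    ∀ B : Finset G, (B : Set G) ⊆ N → Subgroup.normalClosure (B : Set G) ≠ ⊥ →
      ∃ φ : Subgroup.normalClosure (B : Set G) →* Multiplicative (ZMod p), φ ≠ 1 := by
  intro B hB hne
  set M := Subgroup.normalClosure (B : Set G) with hM
  have hle : M ≤ N := Subgroup.normalClosure_le_normal hB
  let e : M.subgroupOf N ≃* M := Subgroup.subgroupOfEquivOfLe hle
  have hfree : IsFreeGroup (M.subgroupOf N) := inferInstance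
  have hnt : ∃ x : M.subgroupOf N, x ≠ 1 := by
    obtain ⟨⟨y, hy⟩, hy0⟩ := (Subgroup.ne_bot_iff_exists_ne_one).mp hne
    have hy1 : y ≠ 1 := fun h => hy0 (Subtype.ext h)
    refine ⟨e.symm ⟨y, hy⟩, ?_⟩
    intro h
    apply hy1
    have h2 : (⟨y, hy⟩ : M) = 1 := by
      have := congrArg e h
      simpa using this
    exact congrArg Subtype.val h2
  obtain ⟨ψ, hψ⟩ := exists_char_of_isFreeGroup p (M.subgroupOf N) hnt
  refine ⟨ψ.comp e.symm.toMonoidHom, ?_⟩
  intro h
  apply hψ
  ext x
  have := DFunLike.congr_fun h (e x)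
  simpa using this

end Vale.Agent.Lib.P194
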