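import Mathlib

namespace Vale.Agent.Lib.P194

/-- A group `Q` is *sofic* (Gromov, Weiss; formulation of Elek and Szabo): for every finite subset
`F` of `Q` and every `ε > 0` there are a nonempty finite set `V` and a map `σ` from `Q` to the
permutations of `V` which is multiplicative on `F` up to a proportion `ε` of the points of `V`, and
such that `σ g` fixes at most a proportion `ε` of the points for every `g ≠ 1` in `F`. -/
def IsSofic (Q : Type*) [Group Q] : Prop :=
  ∀ (F : Finset Q) (ε : ℝ), 0 < ε →
    ∃ (V : Type) (_ : Fintype V) (_ : DecidableEq V) (σ : Q → Equiv.Perm V), Nonempty V ∧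
      (∀ g ∈ F, ∀ h ∈ F,
        ((Finset.univ.filter fun v : V => σ (g * h) v ≠ σ g (σ h v)).card : ℝ)
          ≤ ε * Fintype.card V) ∧
      (∀ g ∈ F, g ≠ 1 →
        ((Finset.univ.filter fun v : V => σ g v = v).card : ℝ) ≤ ε * Fintype.card V)

end Vale.Agent.Lib.P194
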