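import Vale.Agent.Lib.P194.SoficMat

namespace Vale.Agent.Lib.P194

/-- T1. Good points: from soficity, for a finite `F` and `δ > 0` get `V`, `σ` and a set `V₀` of
good points of proportion at least `1 - δ`. -/
theorem exists_good {Q : Type*} [Group Q] (hQ : IsSofic Q) (F : Finset Q) (δ : ℝ) (hδ : 0 < δ) :
    ∃ (V : Type) (_ : Fintype V) (_ : DecidableEq V) (σ : Q → Equiv.Perm V) (V₀ : Finset V),
      Nonempty V ∧ ((Fintype.card V : ℝ) - V₀.card ≤ δ * Fintype.card V) ∧
      ∀ v ∈ V₀, σ 1 v = v ∧ (∀ g ∈ F, ∀ h ∈ F, σ (g * h) v = σ g (σ h v)) ∧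
        (∀ g ∈ F, ∀ h ∈ F, g ≠ h → σ g v ≠ σ h v) := by
  classical
  set F' : Finset Q := F ∪ {1} ∪ (F ×ˢ F).image (fun p => p.2⁻¹ * p.1) with hF'
  have hFF' : ∀ g ∈ F, g ∈ F' := by
    intro g hg
    simp [hF', hg]
  have h1F' : (1 : Q) ∈ F' := by simp [hF']
  have hdF' : ∀ g ∈ F, ∀ h ∈ F, h⁻¹ * g ∈ F' := by
    intro g hg h hh
    rw [hF']
    refine Finset.mem_union_right _ (Finset.mem_image.mpr ⟨(g, h), ?_, rfl⟩)
    simp [hg, hh]
  set m : ℝ := (F'.card : ℝ) with hm
  have hm0 : 0 ≤ m := Nat.cast_nonneg _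
  have hden : 0 < m * m + m + 1 := by positivity
  obtain ⟨V, iF, iD, σ, hne, hmul, hfix⟩ := hQ F' (δ / (m * m + m + 1)) (div_pos hδ hden)
  set ε : ℝ := δ / (m * m + m + 1) with hε
  set B1 : Finset V := (F' ×ˢ F').biUnion
    (fun p => Finset.univ.filter fun v : V => σ (p.1 * p.2) v ≠ σ p.1 (σ p.2 v)) with hB1
  set B2 : Finset V := (F'.filter (fun g => g ≠ 1)).biUnion
    (fun g => Finset.univ.filter fun v : V => σ g v = v) with hB2
  have hc1 : (B1.card : ℝ) ≤ m * m * (ε * Fintype.card V) := by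
    calc (B1.card : ℝ) ≤ ((∑ p ∈ F' ×ˢ F', (Finset.univ.filter
            fun v : V => σ (p.1 * p.2) v ≠ σ p.1 (σ p.2 v)).card : ℕ) : ℝ) := by
          exact_mod_cast Finset.card_biUnion_le
      _ = ∑ p ∈ F' ×ˢ F', ((Finset.univ.filter
            fun v : V => σ (p.1 * p.2) v ≠ σ p.1 (σ p.2 v)).card : ℝ) := by
          push_cast; rfl
      _ ≤ ∑ _p ∈ F' ×ˢ F', ε * Fintype.card V := by
          refine Finset.sum_le_sum fun p hp => ?_
          rw [Finset.mem_product] at hp
          exact hmul p.1 hp.1 p.2 hp.2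
      _ = m * m * (ε * Fintype.card V) := by
          rw [Finset.sum_const, Finset.card_product, nsmul_eq_mul]
          push_cast; rfl
  have hc2 : (B2.card : ℝ) ≤ m * (ε * Fintype.card V) := by
    have hεV : 0 ≤ ε * Fintype.card V := by positivity
    calc (B2.card : ℝ) ≤ ((∑ g ∈ F'.filter (fun g => g ≠ 1), (Finset.univ.filter
            fun v : V => σ g v = v).card : ℕ) : ℝ) := by
          exact_mod_cast Finset.card_biUnion_le
      _ = ∑ g ∈ F'.filter (fun g => g ≠ 1), ((Finset.univ.filter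
            fun v : V => σ g v = v).card : ℝ) := by
          push_cast; rfl
      _ ≤ ∑ _g ∈ F'.filter (fun g => g ≠ 1), ε * Fintype.card V := by
          refine Finset.sum_le_sum fun g hg => ?_
          rw [Finset.mem_filter] at hg
          exact hfix g hg.1 hg.2
      _ = ((F'.filter (fun g => g ≠ 1)).card : ℝ) * (ε * Fintype.card V) := by
          rw [Finset.sum_const, nsmul_eq_mul]
      _ ≤ m * (ε * Fintype.card V) := by
          refine mul_le_mul_of_nonneg_right ?_ hεV
          rw [hm]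
          exact Nat.cast_le.mpr (Finset.card_filter_le _ _)
  refine ⟨V, iF, iD, σ, (B1 ∪ B2)ᶜ, hne, ?_, ?_⟩
  · have hcard : (((B1 ∪ B2)ᶜ).card : ℝ) = Fintype.card V - ((B1 ∪ B2).card : ℝ) := by
      rw [Finset.card_compl, Nat.cast_sub (Finset.card_le_univ _)]
    rw [hcard]
    have hU : ((B1 ∪ B2).card : ℝ) ≤ B1.card + B2.card := by
      exact_mod_cast Finset.card_union_le _ _
    have hV0 : (0 : ℝ) ≤ Fintype.card V := Nat.cast_nonneg _
    have hkey : (m * m + m) * (ε * Fintype.card V) ≤ δ * Fintype.card V := by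
      have : (m * m + m) * ε ≤ δ := by
        rw [hε, mul_div_assoc', div_le_iff₀ hden]
        nlinarith
      calc (m * m + m) * (ε * Fintype.card V) = ((m * m + m) * ε) * Fintype.card V := by ring
        _ ≤ δ * Fintype.card V := mul_le_mul_of_nonneg_right this hV0
    nlinarith
  · intro v hv
    rw [Finset.mem_compl, Finset.mem_union, not_or] at hv
    obtain ⟨hv1, hv2⟩ := hv
    have hM : ∀ g ∈ F', ∀ h ∈ F', σ (g * h) v = σ g (σ h v) := by
      intro g hg h hh
      by_contra hcon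
      apply hv1
      rw [hB1, Finset.mem_biUnion]
      exact ⟨(g, h), Finset.mem_product.mpr ⟨hg, hh⟩, by simpa using hcon⟩
    have hX : ∀ g ∈ F', g ≠ 1 → σ g v ≠ v := by
      intro g hg hg1 hcon
      apply hv2
      rw [hB2, Finset.mem_biUnion]
      exact ⟨g, Finset.mem_filter.mpr ⟨hg, hg1⟩, by simpa using hcon⟩
    refine ⟨?_, fun g hg h hh => hM g (hFF' g hg) h (hFF' h hh), ?_⟩
    · have h11 := hM 1 h1F' 1 h1F'
      rw [mul_one] at h11
      exact ((σ 1).injective h11).symm
    · intro g hg h hh hgh hcon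
      have h2 := hM h (hFF' h hh) (h⁻¹ * g) (hdF' g hg h hh)
      rw [mul_inv_cancel_left, hcon] at h2
      have h3 := (σ h).injective h2
      refine hX (h⁻¹ * g) (hdF' g hg h hh) ?_ h3.symm
      intro h4
      apply hgh
      have := congrArg (fun x => h * x) h4
      simpa using this

end Vale.Agent.Lib.P194
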