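import Vale.Agent.Lib.P194.SoficMat

namespace Vale.Agent.Lib.P194

variable {K Q V : Type*} [Field K] [Group Q] [Fintype V] [DecidableEq V] {n : ℕ}

/-- The additive map `x ↦ ∑_g x(g) [σ g v = w]`. -/
noncomputable def evHom (σ : Q → Equiv.Perm V) (v w : V) : MonoidAlgebra K Q →+ K where
  toFun x := x.coeff.sum (fun g c => if σ g v = w then c else 0)
  map_zero' := by simp
  map_add' x y := by
    rw [MonoidAlgebra.coeff_add]
    refine Finsupp.sum_add_index' (fun g => by simp) (fun g c d => ?_)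
    split_ifs <;> simp

theorem evHom_apply (σ : Q → Equiv.Perm V) (v w : V) (x : MonoidAlgebra K Q) :
    evHom σ v w x = x.coeff.sum (fun g c => if σ g v = w then c else 0) := rfl

theorem evHom_single (σ : Q → Equiv.Perm V) (v w : V) (g : Q) (c : K) :
    evHom σ v w (MonoidAlgebra.single g c) = if σ g v = w then c else 0 := by
  rw [evHom_apply, MonoidAlgebra.coeff_single, Finsupp.sum_single_index]
  simp

theorem sofMat_apply (σ : Q → Equiv.Perm V) (X : Matrix (Fin n) (Fin n) (MonoidAlgebra K Q))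
    (a b : Fin n × V) : sofMat σ X a b = evHom σ b.2 a.2 (X a.1 b.1) := rfl

theorem evHom_mul (σ : Q → Equiv.Perm V) (v w : V) (x y : MonoidAlgebra K Q) :
    evHom σ v w (x * y) =
      ∑ g ∈ x.coeff.support, ∑ h ∈ y.coeff.support,
        if σ (g * h) v = w then x.coeff g * y.coeff h else 0 := by
  rw [MonoidAlgebra.mul_def, Finsupp.sum, map_sum]
  refine Finset.sum_congr rfl fun g _ => ?_
  rw [Finsupp.sum, map_sum]
  refine Finset.sum_congr rfl fun h _ => ?_
  rw [evHom_single]

theorem sum_evHom_mul_evHom (σ : Q → Equiv.Perm V) (v u : V) (x y : MonoidAlgebra K Q) :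
    ∑ w : V, evHom σ w u x * evHom σ v w y =
      ∑ g ∈ x.coeff.support, ∑ h ∈ y.coeff.support,
        if σ g (σ h v) = u then x.coeff g * y.coeff h else 0 := by
  simp only [evHom_apply, Finsupp.sum, Finset.sum_mul_sum]
  rw [Finset.sum_comm]
  refine Finset.sum_congr rfl fun g _ => ?_
  rw [Finset.sum_comm]
  refine Finset.sum_congr rfl fun h _ => ?_
  rw [Finset.sum_eq_single (σ h v)]
  · simp
  · intro w _ hw
    rw [if_neg (Ne.symm hw), mul_zero]
  · intro hw
    exact absurd (Finset.mem_univ _) hw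

theorem mem_suppM [DecidableEq Q] (X : Matrix (Fin n) (Fin n) (MonoidAlgebra K Q)) (i j : Fin n)
    {g : Q} (hg : g ∈ (X i j).coeff.support) : g ∈ suppM X := by
  unfold suppM
  simp only [Finset.mem_biUnion, Finset.mem_univ, true_and]
  exact ⟨i, j, hg⟩

/-- T2a. Local multiplicativity of `sofMat` on the column of a good point. -/
theorem sofMat_mul_col [DecidableEq Q] (σ : Q → Equiv.Perm V)
    (X Y : Matrix (Fin n) (Fin n) (MonoidAlgebra K Q)) (v : V)
    (hv : ∀ g ∈ suppM X, ∀ h ∈ suppM Y, σ (g * h) v = σ g (σ h v)) (a : Fin n × V) (j : Fin n) :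
    (sofMat σ X * sofMat σ Y) a (j, v) = sofMat σ (X * Y) a (j, v) := by
  rw [Matrix.mul_apply, Fintype.sum_prod_type, sofMat_apply, Matrix.mul_apply, map_sum]
  refine Finset.sum_congr rfl fun k _ => ?_
  simp only [sofMat_apply]
  rw [sum_evHom_mul_evHom, evHom_mul]
  refine Finset.sum_congr rfl fun g hg => ?_
  refine Finset.sum_congr rfl fun h hh => ?_
  rw [hv g (mem_suppM X _ _ hg) h (mem_suppM Y _ _ hh)]

/-- T2b. -/
theorem sofMat_one_col (σ : Q → Equiv.Perm V) (v : V) (hv : σ 1 v = v) (a : Fin n × V) (j : Fin n) :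
    sofMat σ (1 : Matrix (Fin n) (Fin n) (MonoidAlgebra K Q)) a (j, v) =
      (1 : Matrix (Fin n × V) (Fin n × V) K) a (j, v) := by
  rw [sofMat_apply]
  obtain ⟨i, w⟩ := a
  simp only [Matrix.one_apply, Prod.mk.injEq]
  by_cases hij : i = j
  · subst hij
    rw [if_pos rfl, MonoidAlgebra.one_def, evHom_single, hv]
    by_cases hw : v = w
    · subst hw; simp
    · rw [if_neg hw, if_neg]
      rintro ⟨-, h⟩
      exact hw h.symm
  · rw [if_neg hij, map_zero, if_neg]
    rintro ⟨h, -⟩
    exact hij h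

/-- T2c. -/
theorem sofMat_zero (σ : Q → Equiv.Perm V) :
    sofMat σ (0 : Matrix (Fin n) (Fin n) (MonoidAlgebra K Q)) = 0 := by
  ext a b
  rw [sofMat_apply]
  simp

end Vale.Agent.Lib.P194
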