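import Vale.Agent.Lib.P194.SoficMat

namespace Vale.Agent.Lib.P194

variable {K Q V : Type*} [Field K] [Group Q] [Fintype V] [DecidableEq V] {n : ℕ}

/-- A maximal subfamily with pairwise disjoint `orb`-sets meets every `orb`-set. -/
theorem exists_maximal_disjoint (V₀ : Finset V) (orb : V → Finset V)
    (hne : ∀ v, (orb v).Nonempty) :
    ∃ V₁ ⊆ V₀, (∀ v ∈ V₁, ∀ w ∈ V₁, v ≠ w → Disjoint (orb v) (orb w)) ∧
      ∀ v ∈ V₀, ∃ w ∈ V₁, ¬ Disjoint (orb v) (orb w) := by
  classical
  let P : Finset V → Prop := fun U => ∀ v ∈ U, ∀ w ∈ U, v ≠ w → Disjoint (orb v) (orb w)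
  have hnonempty : (V₀.powerset.filter P).Nonempty :=
    ⟨∅, by simp [P]⟩
  obtain ⟨V₁, hV₁, hmax⟩ := Finset.exists_max_image (V₀.powerset.filter P) Finset.card hnonempty
  rw [Finset.mem_filter, Finset.mem_powerset] at hV₁
  refine ⟨V₁, hV₁.1, hV₁.2, ?_⟩
  intro v hv
  by_contra hcon
  have hcon' : ∀ w ∈ V₁, Disjoint (orb v) (orb w) := by
    intro w hw
    by_contra h
    exact hcon ⟨w, hw, h⟩
  have hvV₁ : v ∉ V₁ := by
    intro h
    have := hcon' v h
    rw [disjoint_self] at this
    exact (hne v).ne_empty this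
  have hins : insert v V₁ ∈ V₀.powerset.filter P := by
    rw [Finset.mem_filter, Finset.mem_powerset]
    refine ⟨Finset.insert_subset hv hV₁.1, ?_⟩
    intro a ha b hb hab
    rw [Finset.mem_insert] at ha hb
    rcases ha with rfl | ha <;> rcases hb with rfl | hb
    · exact absurd rfl hab
    · exact hcon' b hb
    · exact (hcon' a ha).symm
    · exact hV₁.2 a ha b hb hab
  have := hmax _ hins
  rw [Finset.card_insert_of_notMem hvV₁] at this
  omega

/-- T3. Rank lower bound: a nonzero entry of `f` forces `sofMat σ f`, restricted to the good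
columns, to have rank at least `|V₀| / s ^ 2`, `s` the size of the support of that entry. -/
theorem rank_lower (σ : Q → Equiv.Perm V) (f : Matrix (Fin n) (Fin n) (MonoidAlgebra K Q))
    (i₀ j₀ : Fin n) (hne : f i₀ j₀ ≠ 0) (V₀ : Finset V)
    (hinj : ∀ v ∈ V₀, ∀ g ∈ (f i₀ j₀).coeff.support, ∀ h ∈ (f i₀ j₀).coeff.support,
      g ≠ h → σ g v ≠ σ h v) :
    V₀.card ≤ (f i₀ j₀).coeff.support.card ^ 2 * (sofMat σ f * goodProj K n V₀).rank := by
  classical
  set S := (f i₀ j₀).coeff.support with hS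
  have hSne : S.Nonempty := by
    rw [hS, Finsupp.support_nonempty_iff]
    intro h
    exact hne (MonoidAlgebra.coeff_eq_zero.mp h)
  obtain ⟨g₀, hg₀⟩ := hSne
  let orb : V → Finset V := fun v => S.image (fun g => σ g v)
  obtain ⟨V₁, hV₁sub, hdisj, hmax⟩ := exists_maximal_disjoint V₀ orb
    (fun v => ⟨σ g₀ v, Finset.mem_image_of_mem _ hg₀⟩)
  -- counting
  have hcount : V₀.card ≤ S.card ^ 2 * V₁.card := by
    have hsub : V₀ ⊆ ((S ×ˢ S) ×ˢ V₁).image (fun p => (σ p.1.1).symm (σ p.1.2 p.2)) := by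
      intro v hv
      obtain ⟨w, hw, hnd⟩ := hmax v hv
      rw [Finset.not_disjoint_iff] at hnd
      obtain ⟨x, hxv, hxw⟩ := hnd
      obtain ⟨g, hg, rfl⟩ := Finset.mem_image.mp hxv
      obtain ⟨h, hh, hgh⟩ := Finset.mem_image.mp hxw
      refine Finset.mem_image.mpr ⟨((g, h), w), ?_, ?_⟩
      · simp [hg, hh, hw]
      · simp only
        rw [hgh, Equiv.symm_apply_apply]
    calc V₀.card ≤ (((S ×ˢ S) ×ˢ V₁).image (fun p => (σ p.1.1).symm (σ p.1.2 p.2))).card :=
          Finset.card_le_card hsub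
      _ ≤ ((S ×ˢ S) ×ˢ V₁).card := Finset.card_image_le
      _ = S.card ^ 2 * V₁.card := by
          rw [Finset.card_product, Finset.card_product]; ring
  -- rank
  have hrank : V₁.card ≤ (sofMat σ f * goodProj K n V₀).rank := by
    let r : V₁ → Fin n × V := fun v => (i₀, σ g₀ v)
    let c : V₁ → Fin n × V := fun v => (j₀, v)
    have hsubm : (sofMat σ f * goodProj K n V₀).submatrix r c =
        Matrix.diagonal (fun _ : V₁ => (f i₀ j₀).coeff g₀) := by
      ext v w
      rw [Matrix.submatrix_apply, goodProj, Matrix.mul_diagonal]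
      have hw0 : (w : V) ∈ V₀ := hV₁sub w.2
      simp only [c, r, hw0, if_true, mul_one, sofMat]
      rw [Finsupp.sum]
      by_cases hvw : v = w
      · subst hvw
        rw [Matrix.diagonal_apply_eq]
        rw [Finset.sum_eq_single g₀]
        · simp
        · intro g hg hgg
          rw [if_neg (hinj v hw0 g hg g₀ hg₀ hgg)]
        · intro h
          exact absurd hg₀ h
      · rw [Matrix.diagonal_apply_ne _ hvw]
        apply Finset.sum_eq_zero
        intro g hg
        rw [if_neg]
        intro heq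
        have hd := hdisj v v.2 w w.2 (fun h => hvw (Subtype.ext h))
        rw [Finset.disjoint_left] at hd
        exact hd (Finset.mem_image_of_mem (fun g => σ g (v : V)) hg₀)
          (by rw [← heq]; exact Finset.mem_image_of_mem (fun g => σ g (w : V)) hg)
    have h1 := Matrix.rank_submatrix_le (sofMat σ f * goodProj K n V₀) r c
    rw [hsubm, Matrix.rank_diagonal] at h1
    have hg₀' : (f i₀ j₀).coeff g₀ ≠ 0 := Finsupp.mem_support_iff.mp hg₀
    have h2 : Fintype.card {i : V₁ // (f i₀ j₀).coeff g₀ ≠ 0} = V₁.card := by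
      rw [Fintype.card_congr (Equiv.subtypeUnivEquiv (fun _ => hg₀')), Fintype.card_coe]
    omega
  calc V₀.card ≤ S.card ^ 2 * V₁.card := hcount
    _ ≤ S.card ^ 2 * (sofMat σ f * goodProj K n V₀).rank := Nat.mul_le_mul_left _ hrank

end Vale.Agent.Lib.P194
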