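import Vale.Agent.Lib.P194.SoficGood
import Vale.Agent.Lib.P194.SoficMul
import Vale.Agent.Lib.P194.SoficRank

namespace Vale.Agent.Lib.P194

variable {K Q : Type*} [Field K] [Group Q] {n : ℕ}

theorem mem_suppM_main [DecidableEq Q] (X : Matrix (Fin n) (Fin n) (MonoidAlgebra K Q)) (i j : Fin n)
    (g : Q) (hg : g ∈ (X i j).coeff.support) : g ∈ suppM X :=
  Finset.mem_biUnion.mpr ⟨i, Finset.mem_univ i, Finset.mem_biUnion.mpr ⟨j, Finset.mem_univ j, hg⟩⟩

theorem rank_goodProj {V : Type*} [Fintype V] [DecidableEq V] (V₀ : Finset V) :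
    (goodProj K n V₀).rank = n * V₀.card := by
  classical
  unfold goodProj
  rw [Matrix.rank_diagonal]
  have : Fintype.card {b : Fin n × V // (if b.2 ∈ V₀ then (1 : K) else 0) ≠ 0} =
      Fintype.card (Fin n × V₀) := by
    apply Fintype.card_congr
    refine
      { toFun := fun b => (b.1.1, ⟨b.1.2, by
          by_contra h
          exact b.2 (if_neg h)⟩)
        invFun := fun c => ⟨(c.1, c.2.1), by simp [c.2.2]⟩
        left_inv := fun b => rfl
        right_inv := fun c => rfl }
  rw [this]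
  simp

/-- Elek-Szabo: matrix rings over the group algebra of a sofic group are directly finite. -/
theorem sofic_dedekindFinite (hQ : IsSofic Q) :
    IsDedekindFiniteMonoid (Matrix (Fin n) (Fin n) (MonoidAlgebra K Q)) := by
  classical
  constructor
  intro A B hAB
  by_contra hBA
  set f : Matrix (Fin n) (Fin n) (MonoidAlgebra K Q) := 1 - B * A with hf
  have hf0 : f ≠ 0 := by
    intro h
    apply hBA
    exact (sub_eq_zero.mp h).symm
  have hAf : A * f = 0 := by
    rw [hf, mul_sub, mul_one, ← mul_assoc, hAB, one_mul, sub_self]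
  obtain ⟨i₀, j₀, hne⟩ : ∃ i₀ j₀, f i₀ j₀ ≠ 0 := by
    by_contra hcon
    push Not at hcon
    exact hf0 (by ext1 i j; exact hcon i j)
  set s : ℕ := (f i₀ j₀).coeff.support.card with hs
  let F : Finset Q := suppM A ∪ suppM B ∪ suppM f
  set δ : ℝ := 1 / (2 * ((s : ℝ) ^ 2 * n + 1)) with hδdef
  have hpos : (0 : ℝ) < (s : ℝ) ^ 2 * n + 1 := by positivity
  have hδ : 0 < δ := by positivity
  obtain ⟨V, _, _, σ, V₀, hVne, hcard, hgood⟩ := exists_good hQ F δ hδ
  have hFA : ∀ g ∈ suppM A, g ∈ F := fun g hg =>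
    Finset.mem_union_left _ (Finset.mem_union_left _ hg)
  have hFB : ∀ g ∈ suppM B, g ∈ F := fun g hg =>
    Finset.mem_union_left _ (Finset.mem_union_right _ hg)
  have hFf : ∀ g ∈ suppM f, g ∈ F := fun g hg => Finset.mem_union_right _ hg
  -- (i)
  have h1 : sofMat σ A * sofMat σ B * goodProj K n V₀ = goodProj K n V₀ := by
    ext a b
    obtain ⟨j, v⟩ := b
    unfold goodProj
    rw [Matrix.mul_diagonal]
    by_cases hv : v ∈ V₀
    · obtain ⟨hv1, hv2, _⟩ := hgood v hv
      rw [sofMat_mul_col σ A B v (fun g hg h hh => hv2 g (hFA g hg) h (hFB h hh)), hAB,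
        sofMat_one_col σ v hv1]
      simp only [hv, if_true, mul_one]
      by_cases hab : a = (j, v)
      · subst hab; simp [hv]
      · rw [Matrix.one_apply_ne hab, Matrix.diagonal_apply_ne _ hab]
    · simp only [hv, if_false, mul_zero]
      by_cases hab : a = (j, v)
      · subst hab; simp [hv]
      · rw [Matrix.diagonal_apply_ne _ hab]
  -- (ii)
  have h2 : sofMat σ A * (sofMat σ f * goodProj K n V₀) = 0 := by
    rw [← mul_assoc]
    ext a b
    obtain ⟨j, v⟩ := b
    unfold goodProj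
    rw [Matrix.mul_diagonal]
    by_cases hv : v ∈ V₀
    · obtain ⟨_, hv2, _⟩ := hgood v hv
      rw [sofMat_mul_col σ A f v (fun g hg h hh => hv2 g (hFA g hg) h (hFf h hh)), hAf,
        sofMat_zero]
      simp
    · simp [hv]
  -- ranks
  have r1 : n * V₀.card ≤ (sofMat σ A).rank := by
    rw [← rank_goodProj (K := K) (n := n) V₀, ← h1, mul_assoc]
    exact Matrix.rank_mul_le_left _ _
  have r2 := Matrix.rank_add_rank_le_card_of_mul_eq_zero h2
  have r3 := rank_lower σ f i₀ j₀ hne V₀ (fun v hv g hg h hh hgh =>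
    (hgood v hv).2.2 g (hFf g (mem_suppM_main f i₀ j₀ g hg)) h (hFf h (mem_suppM_main f i₀ j₀ h hh)) hgh)
  rw [← hs] at r3
  have hcardprod : Fintype.card (Fin n × V) = n * Fintype.card V := by simp
  rw [hcardprod] at r2
  -- arithmetic
  set r : ℕ := (sofMat σ f * goodProj K n V₀).rank with hr
  have r4 : n * V₀.card + r ≤ n * Fintype.card V := by omega
  have hVpos : (0 : ℝ) < Fintype.card V := by exact_mod_cast Fintype.card_pos
  have r4' : (n : ℝ) * V₀.card + r ≤ n * Fintype.card V := by exact_mod_cast r4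
  have r3' : (V₀.card : ℝ) ≤ (s : ℝ) ^ 2 * r := by exact_mod_cast r3
  have e1 : (r : ℝ) ≤ n * (δ * Fintype.card V) := by
    have : (n : ℝ) * ((Fintype.card V : ℝ) - V₀.card) ≤ n * (δ * Fintype.card V) :=
      mul_le_mul_of_nonneg_left hcard (by positivity)
    linarith
  have e2 : (V₀.card : ℝ) ≤ (s : ℝ) ^ 2 * (n * (δ * Fintype.card V)) :=
    r3'.trans (mul_le_mul_of_nonneg_left e1 (by positivity))
  have e3 : (Fintype.card V : ℝ) ≤ ((s : ℝ) ^ 2 * n + 1) * δ * Fintype.card V := by
    nlinarith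
  have e4 : ((s : ℝ) ^ 2 * n + 1) * δ = 1 / 2 := by
    rw [hδdef]; field_simp
  rw [e4] at e3
  linarith

/-- Elek-Szabo: the group algebra of a sofic group over a field is stably finite. -/
theorem sofic_stablyFinite (hQ : IsSofic Q) : IsStablyFiniteRing (MonoidAlgebra K Q) :=
  ⟨fun _ => sofic_dedekindFinite hQ⟩

end Vale.Agent.Lib.P194
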