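import Vale.Agent.Lib.P194.SoficDef

namespace Vale.Agent.Lib.P194

variable {K Q V : Type*} [Field K] [Group Q] [Fintype V] [DecidableEq V] {n : ℕ}

/-- The union of the supports of all entries of a matrix over `K[Q]`. -/
noncomputable def suppM [DecidableEq Q] (X : Matrix (Fin n) (Fin n) (MonoidAlgebra K Q)) : Finset Q :=
  (Finset.univ : Finset (Fin n)).biUnion fun i =>
    (Finset.univ : Finset (Fin n)).biUnion fun j => (X i j).coeff.support

/-- The matrix on `Fin n × V` attached to `X ∈ M_n(K[Q])` and a map `σ : Q → Perm V`: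
`g ∈ Q` acts on basis vectors by `e_v ↦ e_{σ g v}`. -/
noncomputable def sofMat (σ : Q → Equiv.Perm V) (X : Matrix (Fin n) (Fin n) (MonoidAlgebra K Q)) :
    Matrix (Fin n × V) (Fin n × V) K :=
  fun a b => (X a.1 b.1).coeff.sum (fun g c => if σ g b.2 = a.2 then c else 0)

/-- The diagonal projection onto the coordinates `(j, v)` with `v ∈ V₀`. -/
def goodProj (K : Type*) [Field K] (n : ℕ) (V₀ : Finset V) : Matrix (Fin n × V) (Fin n × V) K :=
  Matrix.diagonal (fun b => if b.2 ∈ V₀ then 1 else 0)

end Vale.Agent.Lib.P194
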