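import Mathlib

namespace Vale.Agent.Lib.P194

/-- `τ` is a cellular automaton over the group `G` with alphabet `A`: there are a finite memory set
`S ⊆ G` and a local rule `μ` with `τ x g = μ (s ↦ x (g * s))` for all configurations `x` and `g`. -/
def IsCellularAutomaton (G : Type*) [Group G] (A : Type*) (τ : (G → A) → (G → A)) : Prop :=
  ∃ (S : Finset G) (μ : (S → A) → A), ∀ (x : G → A) (g : G), τ x g = μ (fun s => x (g * s))

/-- A group is *surjunctive* (Gottschalk) if every injective cellular automaton over it with a
finite alphabet (without loss of generality `Fin m`) is surjective. -/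
def IsSurjunctive (G : Type*) [Group G] : Prop :=
  ∀ (m : ℕ) (τ : (G → Fin m) → (G → Fin m)), IsCellularAutomaton G (Fin m) τ →
    Function.Injective τ → Function.Surjective τ

end Vale.Agent.Lib.P194
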