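import Vale.Agent.Lib.P194.SurjDef

namespace Vale.Agent.Lib.P194

section Act

variable (F : Type*) [Field F] (Q : Type*) [Group Q]

/-- The right-translation representation of `Q` on `Q → F`. -/
def shiftRep : Q →* Module.End F (Q → F) where
  toFun s := LinearMap.funLeft F F (fun g => g * s)
  map_one' := by ext x g; simp [LinearMap.funLeft]
  map_mul' s t := by ext x g; simp [LinearMap.funLeft, mul_assoc]

theorem shiftRep_apply (s : Q) (x : Q → F) (g : Q) : shiftRep F Q s x g = x (g * s) := rfl

theorem lift_shiftRep_apply (a : MonoidAlgebra F Q) (x : Q → F) (g : Q) :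
    MonoidAlgebra.lift F (Module.End F (Q → F)) Q (shiftRep F Q) a x g
      = a.coeff.sum (fun s c => c * x (g * s)) := by
  rw [MonoidAlgebra.lift_apply]
  simp [Finsupp.sum, shiftRep_apply, LinearMap.sum_apply, Finset.sum_apply]

/-- The induced action of the matrix ring over the group algebra on `Fin n → Q → F`. -/
noncomputable def actHom (n : ℕ) :
    Matrix (Fin n) (Fin n) (MonoidAlgebra F Q) →+* Module.End F (Fin n → Q → F) :=
  ((endVecRingEquivMatrixEnd (Fin n) F (Q → F)).symm : _ →+* _).comp
    ((MonoidAlgebra.lift F (Module.End F (Q → F)) Q (shiftRep F Q)).toRingHom.mapMatrix)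

theorem actHom_apply (n : ℕ) (X : Matrix (Fin n) (Fin n) (MonoidAlgebra F Q))
    (y : Fin n → Q → F) (i : Fin n) (g : Q) :
    actHom F Q n X y i g = ∑ j, (X i j).coeff.sum (fun s c => c * y j (g * s)) := by
  have h : actHom F Q n X y i
      = ∑ j, MonoidAlgebra.lift F (Module.End F (Q → F)) Q (shiftRep F Q) (X i j) (y j) := rfl
  rw [h, Finset.sum_apply]
  exact Finset.sum_congr rfl fun j _ => lift_shiftRep_apply F Q _ _ _

theorem actHom_injective (n : ℕ) : Function.Injective (actHom F Q n) := by
  classical
  rw [injective_iff_map_eq_zero]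
  intro X hX
  ext i j s
  have h := actHom_apply F Q n X (Pi.single j (Pi.single s 1)) i 1
  rw [hX] at h
  simp only [LinearMap.zero_apply, Pi.zero_apply, one_mul] at h
  rw [Finset.sum_eq_single j] at h
  · rw [Pi.single_eq_same, Finsupp.sum_eq_single s] at h
    · simpa using h.symm
    · intro t _ hts
      simp [Pi.single_eq_of_ne hts]
    · simp
  · intro k _ hk
    simp [Pi.single_eq_of_ne hk]
  · simp

end Act

/-- S2. (Elek-Szabo / Ceccherini-Silberstein-Coornaert) Over a finite field, matrix rings over the
group algebra of a surjunctive group are directly finite. -/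
theorem surjunctive_dedekindFinite {Q : Type*} [Group Q] (hQ : IsSurjunctive Q)
    (F : Type*) [Field F] [Finite F] (n : ℕ) :
    IsDedekindFiniteMonoid (Matrix (Fin n) (Fin n) (MonoidAlgebra F Q)) := by
  classical
  refine ⟨fun {A B} hAB => ?_⟩
  obtain ⟨m, ⟨e⟩⟩ := Finite.exists_equiv_fin (Fin n → F)
  let Φ : (Q → Fin m) ≃ (Fin n → Q → F) :=
    { toFun := fun x i g => e.symm (x g) i
      invFun := fun y g => e (fun i => y i g)
      left_inv := fun x => by funext g; simp
      right_inv := fun y => by funext i g; simp }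
  let τ : (Q → Fin m) → (Q → Fin m) := fun x => Φ.symm (actHom F Q n B (Φ x))
  have hCA : IsCellularAutomaton Q (Fin m) τ := by
    let S : Finset Q := Finset.univ.biUnion fun i : Fin n =>
      Finset.univ.biUnion fun j : Fin n => (B i j).coeff.support
    refine ⟨S, fun z => e (fun i => ∑ j, ∑ s : S, (B i j).coeff s * e.symm (z s) j),
      fun x g => ?_⟩
    show e (fun i => actHom F Q n B (Φ x) i g) = _
    congr 1
    funext i
    rw [actHom_apply]
    refine Finset.sum_congr rfl fun j _ => ?_
    rw [Finsupp.sum_of_support_subset (s := S) _ ?_ _ (by simp)]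
    · exact (Finset.sum_coe_sort S (fun s => (B i j).coeff s * e.symm (x (g * s)) j)).symm
    · intro s hs
      simp only [S, Finset.mem_biUnion, Finset.mem_univ, true_and]
      exact ⟨i, j, hs⟩
  have h1 : actHom F Q n A * actHom F Q n B = 1 := by rw [← map_mul, hAB, map_one]
  have h1' : ∀ x, actHom F Q n A (actHom F Q n B x) = x := fun x => by
    rw [← Module.End.mul_apply, h1, Module.End.one_apply]
  have hBinj : Function.Injective (actHom F Q n B) := fun x y hxy => by
    rw [← h1' x, ← h1' y, hxy]
  have hτinj : Function.Injective τ := Φ.symm.injective.comp (hBinj.comp Φ.injective)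
  have hτsurj := hQ m τ hCA hτinj
  have hBsurj : Function.Surjective (actHom F Q n B) := by
    intro y
    obtain ⟨x, hx⟩ := hτsurj (Φ.symm y)
    exact ⟨Φ x, Φ.symm.injective hx⟩
  have h2 : actHom F Q n B * actHom F Q n A = 1 := by
    refine LinearMap.ext fun y => ?_
    obtain ⟨x, rfl⟩ := hBsurj y
    rw [Module.End.mul_apply, h1', Module.End.one_apply]
  apply actHom_injective F Q n
  rw [map_mul, h2, map_one]

end Vale.Agent.Lib.P194
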